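import Vale.Agent.P092.H232.Cover

open MeasureTheory Module

namespace Vale.Agent.P092.H232

/-- The shear coordinates along `v`. -/
noncomputable def shear {n : ℕ} (i : Fin (n + 1)) (v : Fin (n + 1) → ℝ) (x : Fin (n + 1) → ℝ) :
    ℝ × (Fin n → ℝ) := (x i, pr i v x)

theorem mp_shear {n : ℕ} (i : Fin (n + 1)) (v : Fin (n + 1) → ℝ) :
    MeasurePreserving (shear i v) volume volume := by
  have h1 : MeasurePreserving (MeasurableEquiv.piFinSuccAbove (fun _ : Fin (n + 1) => ℝ) i)
      volume volume := volume_preserving_piFinSuccAbove (fun _ => ℝ) i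
  have h2 : MeasurePreserving (fun p : ℝ × (Fin n → ℝ) =>
      (id p.1, p.2 - (p.1 / v i) • (fun k => v (i.succAbove k))))
      (volume.prod volume) (volume.prod volume) := by
    refine MeasurePreserving.skew_product
      (g := fun (a : ℝ) (y : Fin n → ℝ) => y - (a / v i) • (fun k => v (i.succAbove k)))
      (MeasurePreserving.id volume) ?_ ?_
    · simp only [Function.uncurry_def]
      fun_prop
    · exact Filter.Eventually.of_forall fun a => (measurePreserving_sub_right volume _).map_eq
  have h3 := h2.comp h1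
  exact h3

theorem vol_slice {n : ℕ} {F : Set (Fin n → Fin n → ℝ)} (hF : MeasurableSet F) (i : Fin (n + 1))
    (v : Fin (n + 1) → ℝ) (hv : v i ≠ 0) :
    volume {R : Fin n → Fin (n + 1) → ℝ | (∀ j, R j i / v i ∈ Set.Ico (0 : ℝ) 1) ∧
      (fun j : Fin n => lam n (v i) • pr i v (R j)) ∈ F} = volume F := by
  have hl : 0 < lam n (v i) := lam_pos n hv
  have h1 : MeasurePreserving (fun (R : Fin n → Fin (n + 1) → ℝ) (j : Fin n) => shear i v (R j))
      volume volume := volume_preserving_pi fun _ => mp_shear i v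
  have h2 := (volume_measurePreserving_arrowProdEquivProdArrow ℝ (Fin n → ℝ) (Fin n)).comp h1
  set P : Set (Fin n → ℝ) := Set.univ.pi fun _ => (· * (v i)⁻¹) ⁻¹' (Set.Ico (0 : ℝ) 1) with hP
  set Q : Set (Fin n → Fin n → ℝ) := (lam n (v i) • ·) ⁻¹' F with hQ
  have hPm : MeasurableSet P := MeasurableSet.univ_pi fun _ =>
    (measurable_id.mul_const _) measurableSet_Ico
  have hQm : MeasurableSet Q := (measurable_const_smul (lam n (v i))) hF
  have h3 : {R : Fin n → Fin (n + 1) → ℝ | (∀ j, R j i / v i ∈ Set.Ico (0 : ℝ) 1) ∧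
      (fun j : Fin n => lam n (v i) • pr i v (R j)) ∈ F}
      = (⇑(MeasurableEquiv.arrowProdEquivProdArrow ℝ (Fin n → ℝ) (Fin n)) ∘
        fun (R : Fin n → Fin (n + 1) → ℝ) (j : Fin n) => shear i v (R j)) ⁻¹' (P ×ˢ Q) := by
    ext R
    simp only [Set.mem_ofPred_eq, Set.mem_preimage, Set.mem_prod, hP, hQ, Set.mem_pi,
      Set.mem_univ, true_imp_iff, div_eq_mul_inv]
    rfl
  rw [h3, h2.measure_preimage (hPm.prod hQm).nullMeasurableSet, Measure.volume_eq_prod,
    Measure.prod_prod, hP, volume_pi, Measure.pi_pi, hQ, Measure.addHaar_preimage_smul _ hl.ne']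
  simp only [Real.volume_preimage_mul_right (inv_ne_zero hv), inv_inv, Real.volume_Ico, sub_zero,
    ENNReal.ofReal_one, mul_one, Finset.prod_const, Finset.card_univ, Fintype.card_fin]
  have h4 : finrank ℝ (Fin n → Fin n → ℝ) = n * n := by
    simp [Module.finrank_pi_fintype]
  rw [h4, ← mul_assoc, ← ENNReal.ofReal_pow (abs_nonneg _),
    ← ENNReal.ofReal_mul (pow_nonneg (abs_nonneg _) _)]
  have h5 : |v i| ^ n * |(lam n (v i) ^ (n * n))⁻¹| = 1 := by
    rw [pow_mul, abs_inv, abs_of_pos (pow_pos (pow_pos hl n) n)]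
    rcases eq_or_ne n 0 with rfl | hn
    · simp
    · rw [lam_pow hn]
      exact mul_inv_cancel₀ (pow_ne_zero _ (abs_ne_zero.2 hv))
  rw [h5, ENNReal.ofReal_one, one_mul]

theorem vol_step {n : ℕ} {F : Set (Fin n → Fin n → ℝ)} (hF : MeasurableSet F)
    (i : Fin (n + 1)) : volume (step F i) ≤ ENNReal.ofReal (4 ^ (n + 1)) * volume F := by
  have h1 := volume_preserving_piFinSuccAbove (fun _ : Fin (n + 1) => (Fin (n + 1) → ℝ)) 0
  set H : Set ((Fin (n + 1) → ℝ) × (Fin n → Fin (n + 1) → ℝ)) :=
    {p | p.1 i ≠ 0 ∧ (∀ k, |p.1 k| ≤ 2) ∧ (∀ j : Fin n, p.2 j i / p.1 i ∈ Set.Ico (0 : ℝ) 1) ∧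
      (fun j : Fin n => lam n (p.1 i) • pr i p.1 (p.2 j)) ∈ F} with hH
  have h2 : step F i = (MeasurableEquiv.piFinSuccAbove
      (fun _ : Fin (n + 1) => (Fin (n + 1) → ℝ)) 0) ⁻¹' H := by
    ext A
    rfl
  have hHm : MeasurableSet H := by
    have h3 := measurableSet_step hF i
    rw [h2] at h3
    exact (MeasurableEquiv.measurableSet_preimage _).1 h3
  rw [h2, h1.measure_preimage hHm.nullMeasurableSet, Measure.volume_eq_prod,
    Measure.prod_apply hHm]
  calc ∫⁻ v, volume (Prod.mk v ⁻¹' H)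
      ≤ ∫⁻ v, (Metric.closedBall (0 : Fin (n + 1) → ℝ) 2).indicator (fun _ => volume F) v := by
        refine lintegral_mono fun v => ?_
        by_cases hv : v i ≠ 0 ∧ ∀ k, |v k| ≤ 2
        · have hmem : v ∈ Metric.closedBall (0 : Fin (n + 1) → ℝ) 2 := by
            rw [mem_closedBall_zero_iff, pi_norm_le_iff_of_nonneg (by norm_num)]
            exact hv.2
          rw [Set.indicator_of_mem hmem]
          refine le_trans (measure_mono ?_) (vol_slice hF i v hv.1).le
          intro R hR
          exact ⟨hR.2.2.1, hR.2.2.2⟩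
        · have hemp : Prod.mk v ⁻¹' H = ∅ := by
            ext R
            simp only [Set.mem_preimage, Set.mem_empty_iff_false, iff_false]
            intro hR
            exact hv ⟨hR.1, hR.2.1⟩
          rw [hemp, measure_empty]
          exact zero_le
    _ = ENNReal.ofReal (4 ^ (n + 1)) * volume F := by
        rw [lintegral_indicator_const Metric.isClosed_closedBall.measurableSet,
          Real.volume_pi_closedBall 0 (by norm_num : (0:ℝ) ≤ 2), Fintype.card_fin, mul_comm]
        norm_num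

theorem vol_FF (n : ℕ) : volume (FF n) < ⊤ := by
  induction n with
  | zero =>
    show volume (Set.univ : Set (Fin 0 → Fin 0 → ℝ)) < ⊤
    rw [volume_pi, Measure.pi_of_empty (x := fun i => i.elim0)]
    simp
  | succ n ih =>
    refine lt_of_le_of_lt (measure_iUnion_fintype_le volume _) ?_
    refine ENNReal.sum_lt_top.2 fun i _ => ?_
    exact lt_of_le_of_lt (vol_step (measurableSet_FF n) i)
      (ENNReal.mul_lt_top ENNReal.ofReal_lt_top ih)

/-- Negation of the first row. -/
def neg0 (n : ℕ) : Fin n → ℤ := fun j => if (j : ℕ) = 0 then -1 else 1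

theorem neg0_mul (n : ℕ) (j : Fin n) : neg0 n j * neg0 n j = 1 := by
  unfold neg0
  split_ifs <;> norm_num

theorem prod_neg0 (n : ℕ) : ∏ j : Fin (n + 1), neg0 (n + 1) j = -1 := by
  rw [Fin.prod_univ_succ]
  simp [neg0]

/-- The linear map `g ↦ (ε_j g_{kj})_{jk}`. -/
def tl (n : ℕ) (e : Fin n → ℝ) : (Fin n → Fin n → ℝ) →ₗ[ℝ] (Fin n → Fin n → ℝ) where
  toFun g := fun j k => e j * g k j
  map_add' a b := by funext j k; simp [mul_add]
  map_smul' c a := by funext j k; simp; ring

theorem vol_tl (n : ℕ) (e : Fin n → ℝ) (he : ∀ j, e j ≠ 0) :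
    volume (tl n e ⁻¹' FF n) < ⊤ := by
  have hinj : Function.Injective (tl n e) := by
    intro a b h
    funext k j
    have := congrFun (congrFun h j) k
    exact mul_left_cancel₀ (he j) this
  have hdet : LinearMap.det (tl n e) ≠ 0 := by
    have h1 : LinearMap.ker (tl n e) = ⊥ := LinearMap.ker_eq_bot.2 hinj
    intro h2
    have := LinearMap.bot_lt_ker_of_det_eq_zero h2
    rw [h1] at this
    exact lt_irrefl _ this
  rw [Measure.addHaar_preimage_linearMap _ hdet]
  exact ENNReal.mul_lt_top ENNReal.ofReal_lt_top (vol_FF n)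

/-- **[FUND]** `SL_n(ℤ)` has a fundamental set of finite Lebesgue measure in the set of real
matrices with determinant in `(0, 1]`. -/
theorem fund (n : ℕ) : ∃ F : Set (Fin n → Fin n → ℝ), MeasurableSet F ∧
    MeasureTheory.volume F < ⊤ ∧ ∀ g : Matrix (Fin n) (Fin n) ℝ, 0 < g.det → g.det ≤ 1 →
    ∃ γ : Matrix.SpecialLinearGroup (Fin n) ℤ,
      (g * (γ : Matrix (Fin n) (Fin n) ℤ).map (Int.cast : ℤ → ℝ) : Matrix _ _ ℝ) ∈ F := by
  have hcont : ∀ e, Continuous (tl n e) := fun e =>
    LinearMap.continuous_of_finiteDimensional _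
  refine ⟨tl n 1 ⁻¹' FF n ∪ tl n (fun j => (neg0 n j : ℝ)) ⁻¹' FF n, ?_, ?_, ?_⟩
  · exact ((hcont _).measurable (measurableSet_FF n)).union
      ((hcont _).measurable (measurableSet_FF n))
  · refine lt_of_le_of_lt (measure_union_le _ _) (ENNReal.add_lt_top.2 ⟨?_, ?_⟩)
    · exact vol_tl n _ fun j => one_ne_zero
    · refine vol_tl n _ fun j => ?_
      intro h
      have h1 := neg0_mul n j
      have h2 : neg0 n j = 0 := by exact_mod_cast h
      rw [h2] at h1
      norm_num at h1
  · intro g hg0 hg1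
    obtain ⟨B, ⟨γ, hγ, hγd⟩, hB⟩ := cover n g.transpose
      (by rw [Matrix.det_transpose]; exact hg0.ne')
      (by rw [Matrix.det_transpose, abs_of_pos hg0]; exact hg1)
    have hu := abs_det_one hγ hγd (by rw [Matrix.det_transpose]; exact hg0.ne')
    rcases (abs_eq (zero_le_one)).1 hu with h | h
    · refine ⟨⟨γ.transpose, by rw [Matrix.det_transpose, h]⟩, Or.inl ?_⟩
      have h1 : tl n 1 (g * (γ.transpose).map (Int.cast : ℤ → ℝ)) = B := by
        rw [hγ]
        funext j k
        simp only [tl, LinearMap.coe_mk, AddHom.coe_mk, Pi.one_apply, one_mul,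
          Matrix.mul_apply, Matrix.map_apply, Matrix.transpose_apply]
        exact Finset.sum_congr rfl fun l _ => mul_comm _ _
      show tl n 1 (g * (γ.transpose).map (Int.cast : ℤ → ℝ)) ∈ FF n
      rw [h1]
      exact hB
    · cases n with
      | zero => simp at h
      | succ n =>
        set δ : Matrix (Fin (n + 1)) (Fin (n + 1)) ℤ := Matrix.diagonal (neg0 (n + 1)) with hδ
        have hδd : δ.det = -1 := by
          rw [hδ, Matrix.det_diagonal, prod_neg0]
        refine ⟨⟨(δ * γ).transpose, by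
          rw [Matrix.det_transpose, Matrix.det_mul, hδd, h]; norm_num⟩, Or.inr ?_⟩
        have h1 : tl (n + 1) (fun j => (neg0 (n + 1) j : ℝ))
            (g * ((δ * γ).transpose).map (Int.cast : ℤ → ℝ)) = B := by
          rw [hγ]
          have h3 : ∀ j l, ((δ * γ) j l : ℝ) = (neg0 (n + 1) j : ℝ) * (γ j l : ℝ) := by
            intro j l
            rw [hδ, Matrix.diagonal_mul]
            push_cast
            rfl
          funext j k
          simp only [tl, LinearMap.coe_mk, AddHom.coe_mk]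
          rw [Matrix.mul_apply, Matrix.mul_apply, Finset.mul_sum]
          refine Finset.sum_congr rfl fun l _ => ?_
          have h2 : ((neg0 (n + 1) j : ℤ) : ℝ) * (neg0 (n + 1) j : ℤ) = 1 := by
            exact_mod_cast neg0_mul (n + 1) j
          rw [Matrix.map_apply, Matrix.transpose_apply, h3, Matrix.map_apply,
            Matrix.transpose_apply]
          calc (neg0 (n + 1) j : ℝ) * (g k l * ((neg0 (n + 1) j : ℝ) * (γ j l : ℝ)))
              = ((neg0 (n + 1) j : ℝ) * (neg0 (n + 1) j : ℝ)) * (γ j l : ℝ) * g k l := by ring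
            _ = (γ j l : ℝ) * g k l := by rw [h2, one_mul]
        show tl (n + 1) (fun j => (neg0 (n + 1) j : ℝ))
            (g * ((δ * γ).transpose).map (Int.cast : ℤ → ℝ)) ∈ FF (n + 1)
        rw [h1]
        exact hB

end Vale.Agent.P092.H232
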