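import Vale.Agent.P092.H218.Loc
import Vale.Agent.P092.H835.Sup

/-!
P092 (helper232): the join argument, `KEY(j+1) ⟹ KEY(j)`, and `KEY(1) ⟹ all points commute`.

`X₁` = points, `X₂` = subspaces of dimension `j`, `Z` = subspaces of dimension `j + 1` of the
target; `c`, `e`, `p`, `y` are calculi (unital `*`-homomorphisms) of a point `c`, a subspace
`e ∋ c` of dimension `j`, the join `p` of `e` with another point `b`, and another subspace `y ⊃ e`
of dimension `j + 1` with `b ∉ y`; `B` is a function of the calculus of `b`.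
-/

set_option linter.all false

namespace Vale.Agent.P092.H232

open Set Topology
open Vale.Agent.P092.H218 (loc mul_ap)
open Vale.Agent.P092.H835 (exists_cut isClosed_meet isClosed_meet')

section ind

variable {X₁ X₂ : Type*} [TopologicalSpace X₁] [CompactSpace X₁] [T2Space X₁]
  [TopologicalSpace X₂] [CompactSpace X₂] [T2Space X₂] {A : Type*} [AddCommGroup A]

lemma tsupport_mul_l {X : Type*} [TopologicalSpace X] (f g : C(X, ℂ)) :
    tsupport ⇑(f * g) ⊆ tsupport ⇑f :=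
  closure_mono fun x hx h0 => hx (by rw [ContinuousMap.mul_apply, h0, zero_mul])

lemma tsupport_mul_r {X : Type*} [TopologicalSpace X] (f g : C(X, ℂ)) :
    tsupport ⇑(f * g) ⊆ tsupport ⇑g :=
  closure_mono fun x hx h0 => hx (by rw [ContinuousMap.mul_apply, h0, mul_zero])

/-- Splitting a function supported in the union of two open sets. -/
lemma split_fun {X : Type*} [TopologicalSpace X] [CompactSpace X] [T2Space X] (u : C(X, ℂ))
    {O₁ O₂ : Set X} (h₁ : IsOpen O₁) (h₂ : IsOpen O₂) (h : tsupport ⇑u ⊆ O₁ ∪ O₂) :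
    ∃ u₁ u₂ : C(X, ℂ), u = u₁ + u₂ ∧ tsupport ⇑u₁ ⊆ O₁ ∧ tsupport ⇑u₂ ⊆ O₂ ∧
      tsupport ⇑u₁ ⊆ tsupport ⇑u ∧ tsupport ⇑u₂ ⊆ tsupport ⇑u := by
  obtain ⟨χ, hχ, hd, -⟩ := exists_cut (F := tsupport ⇑u ∩ O₂ᶜ) (W := O₁)
    ((isClosed_tsupport _).inter h₂.isClosed_compl) h₁
    (fun x hx => (h hx.1).resolve_right hx.2)
  refine ⟨u * χ, u * (1 - χ), by ring, (tsupport_mul_r _ _).trans hχ, fun x hx => ?_,
    tsupport_mul_l _ _, tsupport_mul_l _ _⟩
  have hx1 := tsupport_mul_l _ _ hx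
  have hx2 : x ∈ tsupport (fun x => 1 - χ x) := tsupport_mul_r u (1 - χ) hx
  by_contra hO
  exact disjoint_left.1 hd hx2 ⟨hx1, hO⟩

/-- A two sided compactness argument for bi-additive maps on functions. -/
theorem two_ind (M : C(X₁, ℂ) → C(X₂, ℂ) → A)
    (hl : ∀ u u' a, M (u + u') a = M u a + M u' a)
    (hr : ∀ u a a', M u (a + a') = M u a + M u a') {S₁ : Set X₁} {S₂ : Set X₂}
    (hS₁ : IsCompact S₁) (hS₂ : IsCompact S₂)
    (hloc : ∀ x ∈ S₁, ∀ y ∈ S₂, ∃ O V, IsOpen O ∧ x ∈ O ∧ IsOpen V ∧ y ∈ V ∧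
      ∀ (u : C(X₁, ℂ)) (a : C(X₂, ℂ)), tsupport ⇑u ⊆ O → tsupport ⇑a ⊆ V → M u a = 0) :
    ∀ (u : C(X₁, ℂ)) (a : C(X₂, ℂ)), tsupport ⇑u ⊆ S₁ → tsupport ⇑a ⊆ S₂ → M u a = 0 := by
  have step : ∀ y ∈ S₂, ∃ V, IsOpen V ∧ y ∈ V ∧ ∃ O, IsOpen O ∧ S₁ ⊆ O ∧
      ∀ (u : C(X₁, ℂ)) (a : C(X₂, ℂ)), tsupport ⇑u ⊆ O → tsupport ⇑a ⊆ V → M u a = 0 := by
    intro y hy
    refine hS₁.induction_on (p := fun S => ∃ V, IsOpen V ∧ y ∈ V ∧ ∃ O, IsOpen O ∧ S ⊆ O ∧
      ∀ (u : C(X₁, ℂ)) (a : C(X₂, ℂ)), tsupport ⇑u ⊆ O → tsupport ⇑a ⊆ V → M u a = 0) ?_ ?_ ?_ ?_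
    · refine ⟨univ, isOpen_univ, mem_univ _, ∅, isOpen_empty, subset_rfl, fun u a hu _ => ?_⟩
      have h0 : u = 0 := by
        ext x
        by_contra hx
        exact (hu (subset_tsupport _ hx)).elim
      have := hl 0 0 a
      rw [add_zero] at this
      rw [h0]; exact left_eq_add.1 this
    · rintro S T hST ⟨V, hV, hy, O, hO, hT, h⟩
      exact ⟨V, hV, hy, O, hO, hST.trans hT, h⟩
    · rintro S T ⟨V, hV, hy, O, hO, hS, h⟩ ⟨V', hV', hy', O', hO', hT, h'⟩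
      refine ⟨V ∩ V', hV.inter hV', ⟨hy, hy'⟩, O ∪ O', hO.union hO', union_subset_union hS hT,
        fun u a hu ha => ?_⟩
      obtain ⟨u₁, u₂, rfl, h1, h2, -, -⟩ := split_fun u hO hO' hu
      rw [hl, h _ _ h1 (ha.trans inter_subset_left), h' _ _ h2 (ha.trans inter_subset_right),
        add_zero]
    · intro x hx
      obtain ⟨O, V, hO, hxO, hV, hyV, h⟩ := hloc x hx y hy
      exact ⟨O, mem_nhdsWithin_of_mem_nhds (hO.mem_nhds hxO), V, hV, hyV, O, hO, subset_rfl, h⟩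
  obtain ⟨V, hV, hSV, O, hO, hSO, h⟩ := hS₂.induction_on
    (p := fun S => ∃ V, IsOpen V ∧ S ⊆ V ∧ ∃ O, IsOpen O ∧ S₁ ⊆ O ∧
      ∀ (u : C(X₁, ℂ)) (a : C(X₂, ℂ)), tsupport ⇑u ⊆ O → tsupport ⇑a ⊆ V → M u a = 0)
    (by
      refine ⟨∅, isOpen_empty, subset_rfl, univ, isOpen_univ, subset_univ _, fun u a _ ha => ?_⟩
      have h0 : a = 0 := by
        ext x
        by_contra hx
        exact (ha (subset_tsupport _ hx)).elim
      have := hr u 0 0
      rw [add_zero] at this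
      rw [h0]; exact left_eq_add.1 this)
    (by
      rintro S T hST ⟨V, hV, hT, O, hO, hS, h⟩
      exact ⟨V, hV, hST.trans hT, O, hO, hS, h⟩)
    (by
      rintro S T ⟨V, hV, hS, O, hO, hSO, h⟩ ⟨V', hV', hT, O', hO', hSO', h'⟩
      refine ⟨V ∪ V', hV.union hV', union_subset_union hS hT, O ∩ O', hO.inter hO',
        subset_inter hSO hSO', fun u a hu ha => ?_⟩
      obtain ⟨a₁, a₂, rfl, h1, h2, -, -⟩ := split_fun a hV hV' ha
      rw [hr, h _ _ (hu.trans inter_subset_left) h1, h' _ _ (hu.trans inter_subset_right) h2,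
        add_zero])
    (by
      intro y hy
      obtain ⟨V, hV, hyV, O, hO, hSO, h⟩ := step y hy
      exact ⟨V, mem_nhdsWithin_of_mem_nhds (hV.mem_nhds hyV), V, hV, subset_rfl, O, hO, hSO, h⟩)
  exact fun u a hu ha => h u a (hu.trans hSO) (ha.trans hSV)

end ind

section join

variable {X₁ X₂ Z K : Type*} [TopologicalSpace X₁] [CompactSpace X₁] [T2Space X₁]
  [TopologicalSpace X₂] [CompactSpace X₂] [T2Space X₂]
  [TopologicalSpace Z] [CompactSpace Z] [T2Space Z]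
  [NormedAddCommGroup K] [InnerProductSpace ℂ K] [CompleteSpace K]

/-- The supports of `u` and `a` contain no pair in relation `I`. -/
def Nin {X Y : Type*} [TopologicalSpace X] [TopologicalSpace Y] (I : X → Y → Prop)
    (u : C(X, ℂ)) (a : C(Y, ℂ)) : Prop :=
  ∀ x ∈ tsupport ⇑u, ∀ y ∈ tsupport ⇑a, ¬ I x y

/-- `v` splits into a part off `x` and a part off `y`, if no element of its support is incident
with both. -/
lemma split_inc {I₁ : X₁ → Z → Prop} {I₂ : X₂ → Z → Prop}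
    (hI₁ : IsClosed {q : X₁ × Z | I₁ q.1 q.2}) (hI₂ : IsClosed {q : X₂ × Z | I₂ q.1 q.2})
    {x : X₁} {y : X₂} (v : C(Z, ℂ)) (h : ∀ z ∈ tsupport ⇑v, I₁ x z → I₂ y z → False) :
    ∃ v₁ v₂ : C(Z, ℂ), v = v₁ + v₂ ∧ ∃ O V, IsOpen O ∧ x ∈ O ∧ IsOpen V ∧ y ∈ V ∧
      (∀ u : C(X₁, ℂ), tsupport ⇑u ⊆ O → Nin I₁ u v₁) ∧
      ∀ a : C(X₂, ℂ), tsupport ⇑a ⊆ V → Nin I₂ a v₂ := by
  have hW : IsOpen {z : Z | ¬ I₁ x z} := by
    have : {z : Z | ¬ I₁ x z} = ((fun z => (x, z)) ⁻¹' {q : X₁ × Z | I₁ q.1 q.2})ᶜ := rfl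
    rw [this]
    exact (hI₁.preimage (by fun_prop)).isOpen_compl
  have hV : IsOpen {z : Z | ¬ I₂ y z} := by
    have : {z : Z | ¬ I₂ y z} = ((fun z => (y, z)) ⁻¹' {q : X₂ × Z | I₂ q.1 q.2})ᶜ := rfl
    rw [this]
    exact (hI₂.preimage (by fun_prop)).isOpen_compl
  obtain ⟨v₁, v₂, hv, h1, h2, -, -⟩ := split_fun v hW hV fun z hz => by
    by_cases h1 : I₁ x z
    · exact Or.inr fun h2 => h z hz h1 h2
    · exact Or.inl h1
  refine ⟨v₁, v₂, hv, {x' | ∃ z ∈ tsupport ⇑v₁, I₁ x' z}ᶜ, {y' | ∃ z ∈ tsupport ⇑v₂, I₂ y' z}ᶜ,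
    (isClosed_meet' hI₁ (isClosed_tsupport _)).isOpen_compl, ?_,
    (isClosed_meet' hI₂ (isClosed_tsupport _)).isOpen_compl, ?_, ?_, ?_⟩
  · rintro ⟨z, hz, hxz⟩
    exact h1 hz hxz
  · rintro ⟨z, hz, hyz⟩
    exact h2 hz hyz
  · exact fun u hu x' hx' z hz hxz => hu hx' ⟨z, hz, hxz⟩
  · exact fun a ha y' hy' z hz hyz => ha hy' ⟨z, hz, hyz⟩

/-- **THE JOIN STEP.** `J` = incidence of points and `j`-spaces; `B = b f`, `D` = complement of the
support of `f`. -/
theorem join {I₁ : X₁ → Z → Prop} {I₂ : X₂ → Z → Prop} {J : X₁ → X₂ → Prop}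
    (hI₁ : IsClosed {q : X₁ × Z | I₁ q.1 q.2}) (hI₂ : IsClosed {q : X₂ × Z | I₂ q.1 q.2})
    (huniq : ∀ x y, ¬ J x y → ∀ z z', I₁ x z → I₂ y z → I₁ x z' → I₂ y z' → z = z')
    (c : C(X₁, ℂ) →⋆ₐ[ℂ] (K →L[ℂ] K)) (e : C(X₂, ℂ) →⋆ₐ[ℂ] (K →L[ℂ] K)) (B : K →L[ℂ] K)
    (p y : C(Z, ℂ) →⋆ₐ[ℂ] (K →L[ℂ] K))
    (hpc : ∀ u v, Commute (c u) (p v)) (hpe : ∀ a v, Commute (e a) (p v))
    (hpB : ∀ v, Commute B (p v)) (hye : ∀ a s, Commute (e a) (y s))
    (icp : ∀ u v, Nin I₁ u v → c u * p v = 0) (iep : ∀ a v, Nin I₂ a v → e a * p v = 0)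
    (iey : ∀ a s, Nin I₂ a s → e a * y s = 0)
    (agr : ∀ ξ, (∀ f, p f ξ = y f ξ) → ξ = 0) {D : Set X₁} (hD : IsOpen D)
    (key : ∀ (u : C(X₁, ℂ)) (s : C(Z, ℂ)), tsupport ⇑u ⊆ D → Nin I₁ u s → c u * B * y s = 0)
    (u : C(X₁, ℂ)) (a : C(X₂, ℂ)) (huD : tsupport ⇑u ⊆ D) (hJ : Nin J u a) :
    c u * B * e a = 0 := by
  -- `T p(v) y(s) = 0` for disjoint supports
  have main : ∀ v s : C(Z, ℂ), Disjoint (tsupport ⇑v) (tsupport ⇑s) →
      c u * B * e a * p v * y s = 0 := by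
    intro v s hvs
    refine two_ind (A := K →L[ℂ] K) (S₁ := tsupport ⇑u) (S₂ := tsupport ⇑a)
      (fun u' a' => c u' * B * e a' * p v * y s)
      (fun u' u'' a' => by simp only [map_add, add_mul])
      (fun u' a' a'' => by simp only [mul_add, map_add, add_mul])
      (isClosed_tsupport _).isCompact (isClosed_tsupport _).isCompact
      (fun x hx y' hy' => ?_) u a subset_rfl subset_rfl
    have hxy : ¬ J x y' := hJ x hx y' hy'
    by_cases hc : ∀ z ∈ tsupport ⇑v, I₁ x z → I₂ y' z → False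
    · obtain ⟨v₁, v₂, hv, O, V, hO, hxO, hV, hyV, h1, h2⟩ := split_inc hI₁ hI₂ v hc
      refine ⟨O, V, hO, hxO, hV, hyV, fun u' a' hu' ha' => ?_⟩
      have e1 : c u' * p v₁ = 0 := icp _ _ (h1 _ hu')
      have e2 : e a' * p v₂ = 0 := iep _ _ (h2 _ ha')
      have e3 : c u' * B * e a' * p v₁ = 0 := by
        rw [mul_assoc _ (e a'), (hpe a' v₁).eq, ← mul_assoc, mul_assoc _ B, (hpB v₁).eq,
          ← mul_assoc, e1, zero_mul, zero_mul]
      rw [hv, map_add, mul_add, e3, mul_assoc _ (e a') (p v₂), e2, mul_zero, add_zero, zero_mul]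
    · push Not at hc
      obtain ⟨z₀, hz₀, h10, h20, -⟩ := hc
      have hs : ∀ z ∈ tsupport ⇑s, I₁ x z → I₂ y' z → False := by
        intro z hz h1 h2
        rw [huniq x y' hxy z z₀ h1 h2 h10 h20] at hz
        exact disjoint_left.1 hvs hz₀ hz
      obtain ⟨s₁, s₂, hv, O, V, hO, hxO, hV, hyV, h1, h2⟩ := split_inc hI₁ hI₂ s hs
      refine ⟨O ∩ D, V, hO.inter hD, ⟨hxO, huD hx⟩, hV, hyV, fun u' a' hu' ha' => ?_⟩
      have e1 : c u' * B * y s₁ = 0 :=
        key _ _ (hu'.trans inter_subset_right) (h1 _ (hu'.trans inter_subset_left))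
      have e2 : e a' * y s₂ = 0 := iey _ _ (h2 _ ha')
      have e3 : c u' * B * e a' * p v = p v * (c u' * B * e a') :=
        (((hpc u' v).mul_left (hpB v)).mul_left (hpe a' v)).eq
      have e4 : c u' * B * e a' * y s₁ = 0 := by
        rw [mul_assoc _ (e a'), (hye a' s₁).eq, ← mul_assoc, e1, zero_mul]
      rw [e3, mul_assoc, hv, map_add, mul_add, e4, mul_assoc _ (e a') (y s₂), e2, mul_zero,
        add_zero, mul_zero]
  -- the adjoint of `T` has its range in the agreement space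
  set T := c u * B * e a with hT
  have hst : star T = 0 := by
    ext ξ
    refine agr _ fun f => ?_
    have hl := loc y p (1 : K →L[ℂ] K) (star T ξ) (fun s v hsv => ?_) f
    · simpa using hl
    · have h1 := main (star v) (star s) ?_
      · have h2 : y s * p v * star T = 0 := by
          have h3 := congrArg star h1
          simp only [star_mul, map_star, star_star, star_zero] at h3
          rw [mul_assoc]; exact h3
        have := congrArg (fun S : K →L[ℂ] K => S ξ) h2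
        simpa [mul_ap] using this
      · have hv : tsupport ⇑(star v) = tsupport ⇑v := by
          unfold tsupport
          congr 1
          ext x; simp [Function.mem_support]
        have hs : tsupport ⇑(star s) = tsupport ⇑s := by
          unfold tsupport
          congr 1
          ext x; simp [Function.mem_support]
        rw [hv, hs]; exact hsv.symm
  have := congrArg star hst
  rwa [star_star, star_zero] at this

/-- `KEY(1)` gives commutation: from `c u * b f * c a = 0` for disjoint supports of `u`, `a` and of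
`u`, `f`. -/
theorem comm_of_key (c b : C(X₁, ℂ) →⋆ₐ[ℂ] (K →L[ℂ] K))
    (h : ∀ u f a : C(X₁, ℂ), Disjoint (tsupport ⇑u) (tsupport ⇑f) →
      Disjoint (tsupport ⇑u) (tsupport ⇑a) → c u * b f * c a = 0) (f g : C(X₁, ℂ)) :
    Commute (b f) (c g) := by
  have hts : ∀ v : C(X₁, ℂ), tsupport ⇑(star v) = tsupport ⇑v := fun v => by
    unfold tsupport
    congr 1
    ext x; simp [Function.mem_support]
  have h' : ∀ u a : C(X₁, ℂ), Disjoint (tsupport ⇑u) (tsupport ⇑a) → c u * b f * c a = 0 := by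
    intro u a hua
    obtain ⟨f₁, f₂, hf, h1, h2, -, -⟩ := split_fun f (O₁ := (tsupport ⇑u)ᶜ)
      (O₂ := (tsupport ⇑a)ᶜ) (isClosed_tsupport _).isOpen_compl
      (isClosed_tsupport _).isOpen_compl fun x _ => by
        by_cases hx : x ∈ tsupport ⇑u
        · exact Or.inr fun h => disjoint_left.1 hua hx h
        · exact Or.inl hx
    have e1 : c u * b f₁ * c a = 0 :=
      h u f₁ a (disjoint_left.2 fun x hx hx' => h1 hx' hx) hua
    have e2 : c u * b f₂ * c a = 0 := by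
      have h3 := h (star a) (star f₂) (star u)
        (by rw [hts, hts]; exact disjoint_left.2 fun x hx hx' => h2 hx' hx)
        (by rw [hts, hts]; exact hua.symm)
      have h4 := congrArg star h3
      simp only [star_mul, map_star, star_star, star_zero] at h4
      rw [mul_assoc]; exact h4
    rw [hf, map_add, mul_add, add_mul, e1, e2, add_zero]
  have h3 := Vale.Agent.P092.H218.loc_op c c (b f) (fun u a hua => by
    have := h' u a hua
    rw [mul_assoc] at this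
    exact this) g
  exact h3

/-- **n = 3**: all points commute (see also #5210 of helper437). `b ≠ c`, `l` = the line `bc`, `m`
another line through `c`. -/
theorem points {I : X₁ → Z → Prop} (hI : IsClosed {q : X₁ × Z | I q.1 q.2})
    (huniq : ∀ x x', x ≠ x' → ∀ z z', I x z → I x' z → I x z' → I x' z' → z = z')
    (c b : C(X₁, ℂ) →⋆ₐ[ℂ] (K →L[ℂ] K)) (l m : C(Z, ℂ) →⋆ₐ[ℂ] (K →L[ℂ] K))
    (hcl : ∀ u v, Commute (c u) (l v)) (hbl : ∀ u v, Commute (b u) (l v))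
    (hcm : ∀ u v, Commute (c u) (m v))
    (icl : ∀ u v, Nin I u v → c u * l v = 0) (icm : ∀ u v, Nin I u v → c u * m v = 0)
    (agr : ∀ ξ, (∀ f, l f ξ = m f ξ) → ξ = 0)
    (key : ∀ (u f : C(X₁, ℂ)) (s : C(Z, ℂ)), Disjoint (tsupport ⇑u) (tsupport ⇑f) →
      Nin I u s → c u * b f * m s = 0) (f g : C(X₁, ℂ)) : Commute (b f) (c g) := by
  refine comm_of_key c b (fun u f a huf hua => ?_) f g
  refine join (J := fun x x' => x = x') hI hI (fun x x' hx => huniq x x' hx) c c (b f) l m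
    hcl hcl (fun v => hbl f v) hcm icl icl icm agr (D := (tsupport ⇑f)ᶜ)
    (isClosed_tsupport _).isOpen_compl (fun u' s hu' hs => key u' f s ?_ hs) u a ?_ ?_
  · exact disjoint_left.2 fun x hx hx' => hu' hx hx'
  · exact fun x hx hx' => disjoint_left.1 huf hx hx'
  · rintro x hx y hy rfl
    exact disjoint_left.1 hua hx hy

end join

end Vale.Agent.P092.H232
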