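import Mathlib

open MeasureTheory Module

namespace Vale.Agent.P092.H232

/-- `B` is obtained from `A` by an integral row operation of determinant `±1`. -/
def Red {n : ℕ} (A B : Matrix (Fin n) (Fin n) ℝ) : Prop :=
  ∃ γ : Matrix (Fin n) (Fin n) ℤ, B = γ.map (Int.cast : ℤ → ℝ) * A ∧ |B.det| = |A.det|

theorem Red.refl {n : ℕ} (A : Matrix (Fin n) (Fin n) ℝ) : Red A A :=
  ⟨1, by rw [Matrix.map_one _ Int.cast_zero Int.cast_one, Matrix.one_mul], rfl⟩

theorem Red.trans {n : ℕ} {A B C : Matrix (Fin n) (Fin n) ℝ} (h : Red A B) (h' : Red B C) :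
    Red A C := by
  obtain ⟨γ, h1, h2⟩ := h
  obtain ⟨γ', h3, h4⟩ := h'
  refine ⟨γ' * γ, ?_, h4.trans h2⟩
  have : ((γ' * γ).map (Int.cast : ℤ → ℝ)) = γ'.map (Int.cast : ℤ → ℝ) * γ.map (Int.cast : ℤ → ℝ) := by
    have := Matrix.map_mul (L := γ') (M := γ) (f := Int.castRingHom ℝ)
    simpa using this
  rw [this, h3, h1, Matrix.mul_assoc]

theorem det_castMap {n : ℕ} (γ : Matrix (Fin n) (Fin n) ℤ) :
    (γ.map (Int.cast : ℤ → ℝ)).det = (γ.det : ℝ) := by
  have := (RingHom.map_det (Int.castRingHom ℝ) γ).symm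
  simpa using this

theorem abs_det_one {n : ℕ} {A B : Matrix (Fin n) (Fin n) ℝ} {γ : Matrix (Fin n) (Fin n) ℤ}
    (hB : B = γ.map (Int.cast : ℤ → ℝ) * A) (h : |B.det| = |A.det|) (hA : A.det ≠ 0) :
    |γ.det| = 1 := by
  have h1 : |(γ.det : ℝ)| * |A.det| = |A.det| := by
    rw [← abs_mul, ← det_castMap, ← Matrix.det_mul, ← hB, h]
  have h2 : |(γ.det : ℝ)| = 1 := by
    have h3 : |A.det| ≠ 0 := abs_ne_zero.2 hA
    exact mul_right_cancel₀ h3 (by rw [h1, one_mul])
  exact_mod_cast h2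

/-- A nonzero integral vector is a multiple of a member of an integral basis. -/
theorem exists_basis (n : ℕ) (c : Fin (n + 1) → ℤ) (hc : c ≠ 0) :
    ∃ (γ : Matrix (Fin (n + 1)) (Fin (n + 1)) ℤ) (a : ℤ), |γ.det| = 1 ∧ c = a • γ 0 := by
  obtain ⟨k, S⟩ := Submodule.smithNormalForm (Pi.basisFun ℤ (Fin (n + 1)))
    (Submodule.span ℤ {c})
  have hk : k ≤ 1 := by
    have h1 : finrank ℤ (Submodule.span ℤ {c}) = k := by
      rw [finrank_eq_card_basis S.bN, Fintype.card_fin]
    have h2 := finrank_span_le_card (R := ℤ) ({c} : Set (Fin (n + 1) → ℤ))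
    simpa [h1] using h2
  have hcm : c ∈ Submodule.span ℤ {c} := Submodule.mem_span_singleton_self c
  have hsum : (⟨c, hcm⟩ : Submodule.span ℤ {c}) = ∑ i, S.bN.repr ⟨c, hcm⟩ i • S.bN i :=
    (S.bN.sum_repr _).symm
  interval_cases k
  · exfalso
    rw [Fin.sum_univ_zero] at hsum
    exact hc (congrArg Subtype.val hsum)
  · have hc1 : c = (S.bN.repr ⟨c, hcm⟩ 0 * S.a 0) • S.bM (S.f 0) := by
      have h3 := congrArg Subtype.val hsum
      rw [Fin.sum_univ_one] at h3
      simp only [Submodule.coe_smul] at h3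
      rw [S.snf 0, smul_smul] at h3
      exact h3
    set b := S.bM.reindex (Equiv.swap (S.f 0) 0) with hb
    refine ⟨Matrix.of fun i => b i, S.bN.repr ⟨c, hcm⟩ 0 * S.a 0, ?_, ?_⟩
    · have h4 : IsUnit ((Pi.basisFun ℤ (Fin (n + 1))).det b) :=
        Basis.isUnit_det (Pi.basisFun ℤ (Fin (n + 1))) b
      have h5 : (Pi.basisFun ℤ (Fin (n + 1))).det b = (Matrix.of fun i => b i).det := by
        rw [Basis.det_apply, ← Matrix.det_transpose]
        congr 1
      rw [h5] at h4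
      exact Int.isUnit_iff_abs_eq.1 h4
    · have h6 : (Matrix.of fun i => b i) 0 = S.bM (S.f 0) := by
        show b 0 = _
        rw [hb, Basis.reindex_apply]
        simp
      rw [h6]
      exact hc1

theorem exists_short (n : ℕ) (A : Matrix (Fin (n + 1)) (Fin (n + 1)) ℝ) (h0 : A.det ≠ 0)
    (h1 : |A.det| ≤ 1) : ∃ B, Red A B ∧ B 0 ≠ 0 ∧ ∀ i, |B 0 i| ≤ 2 := by
  have hli : LinearIndependent ℝ (fun i => A i) := Matrix.linearIndependent_rows_of_det_ne_zero h0
  set b : Basis (Fin (n + 1)) ℝ (Fin (n + 1) → ℝ) :=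
    basisOfLinearIndependentOfCardEqFinrank hli (by simp) with hb
  have hbA : (b : Fin (n + 1) → Fin (n + 1) → ℝ) = fun i => A i := by
    rw [hb, coe_basisOfLinearIndependentOfCardEqFinrank]
  have hvol : volume (ZSpan.fundamentalDomain b) ≤ 1 := by
    rw [ZSpan.volume_fundamentalDomain, hbA]
    have : (Matrix.of fun i => A i) = A := rfl
    rw [this]
    exact ENNReal.ofReal_le_one.2 h1
  have hcount : Countable (Submodule.span ℤ (Set.range b)).toAddSubgroup :=
    inferInstanceAs (Countable (Submodule.span ℤ (Set.range b)))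
  obtain ⟨x, hx0, hxs⟩ := exists_ne_zero_mem_lattice_of_measure_mul_two_pow_lt_measure
    (μ := (volume : Measure (Fin (n + 1) → ℝ)))
    (L := (Submodule.span ℤ (Set.range b)).toAddSubgroup)
    (s := Metric.closedBall (0 : Fin (n + 1) → ℝ) 2)
    (ZSpan.isAddFundamentalDomain' b volume)
    (by
      intro x hx
      simpa using hx)
    (convex_closedBall 0 2)
    (by
      rw [Real.volume_pi_closedBall 0 (by norm_num : (0:ℝ) ≤ 2)]
      calc volume (ZSpan.fundamentalDomain b) * 2 ^ finrank ℝ (Fin (n + 1) → ℝ)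
          ≤ 1 * 2 ^ finrank ℝ (Fin (n + 1) → ℝ) := by gcongr
        _ = ENNReal.ofReal (2 ^ (n + 1)) := by
            rw [one_mul, finrank_fin_fun, ENNReal.ofReal_pow (by norm_num)]
            norm_num
        _ < ENNReal.ofReal ((2 * 2) ^ Fintype.card (Fin (n + 1))) := by
            rw [Fintype.card_fin]
            refine (ENNReal.ofReal_lt_ofReal_iff (by positivity)).2 ?_
            exact pow_lt_pow_left₀ (by norm_num) (by norm_num) (by omega))
  have hxm : (x : Fin (n + 1) → ℝ) ∈ Submodule.span ℤ (Set.range b) := x.2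
  obtain ⟨c, hc⟩ := (Submodule.mem_span_range_iff_exists_fun ℤ).1 hxm
  have hx0' : (x : Fin (n + 1) → ℝ) ≠ 0 := fun h => hx0 (Subtype.ext h)
  have hc0 : c ≠ 0 := by
    rintro rfl
    apply hx0'
    rw [← hc]
    simp
  obtain ⟨γ, a, hγ, hca⟩ := exists_basis n c hc0
  set B : Matrix (Fin (n + 1)) (Fin (n + 1)) ℝ := γ.map (Int.cast : ℤ → ℝ) * A with hB
  have hxB : (x : Fin (n + 1) → ℝ) = (a : ℝ) • B 0 := by
    rw [← hc]
    funext j
    simp only [hB, Matrix.mul_apply, Finset.sum_apply, Pi.smul_apply, hbA, Matrix.map_apply,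
      smul_eq_mul, Finset.mul_sum, hca]
    refine Finset.sum_congr rfl fun i _ => ?_
    rw [zsmul_eq_mul]
    push_cast
    ring
  have ha : a ≠ 0 := by
    rintro rfl
    apply hx0'
    rw [hxB]
    simp
  refine ⟨B, ⟨γ, rfl, ?_⟩, ?_, ?_⟩
  · rw [hB, Matrix.det_mul, det_castMap, abs_mul]
    have : |(γ.det : ℝ)| = 1 := by exact_mod_cast hγ
    rw [this, one_mul]
  · intro h
    apply hx0'
    rw [hxB, h, smul_zero]
  · intro i
    have h3 : |(x : Fin (n + 1) → ℝ) i| ≤ 2 := by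
      have h4 : ‖(x : Fin (n + 1) → ℝ)‖ ≤ 2 := by simpa using hxs
      exact (norm_le_pi_norm (x : Fin (n + 1) → ℝ) i).trans h4
    have h5 : (1 : ℝ) ≤ |(a : ℝ)| := by exact_mod_cast Int.one_le_abs ha
    have h6 : |(x : Fin (n + 1) → ℝ) i| = |(a : ℝ)| * |B 0 i| := by
      rw [hxB, Pi.smul_apply, smul_eq_mul, abs_mul]
    calc |B 0 i| ≤ |(a : ℝ)| * |B 0 i| := le_mul_of_one_le_left (abs_nonneg _) h5
      _ ≤ 2 := by rw [← h6]; exact h3

/-- Projection along `v`, eliminating the `i`-th coordinate. -/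
noncomputable def pr {n : ℕ} (i : Fin (n + 1)) (v x : Fin (n + 1) → ℝ) : Fin n → ℝ :=
  fun k => x (i.succAbove k) - x i / v i * v (i.succAbove k)

theorem pr_self {n : ℕ} (i : Fin (n + 1)) (v : Fin (n + 1) → ℝ) (h : v i ≠ 0) :
    pr i v v = 0 := by
  funext k
  simp [pr, h]

theorem det_pr {n : ℕ} (i : Fin (n + 1)) (A : Matrix (Fin (n + 1)) (Fin (n + 1)) ℝ)
    (h : A 0 i ≠ 0) :
    |A.det| = |A 0 i| * |(Matrix.of fun j : Fin n => pr i (A 0) (A j.succ)).det| := by
  set A' : Matrix (Fin (n + 1)) (Fin (n + 1)) ℝ :=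
    Matrix.of (Fin.cons (A 0) fun j => A j.succ - (A j.succ i / A 0 i) • A 0) with hA'
  have hA0 : A' 0 = A 0 := rfl
  have hAs : ∀ j : Fin n, A' j.succ = A j.succ - (A j.succ i / A 0 i) • A 0 := fun j => rfl
  have h1 : A.det = A'.det := by
    refine Matrix.det_eq_of_forall_row_eq_smul_add_const
      (Fin.cons 0 fun j : Fin n => A j.succ i / A 0 i) 0 rfl ?_
    intro j k
    refine Fin.cases ?_ (fun j => ?_) j
    · rw [hA0]; simp
    · rw [hAs, hA0]
      simp only [Pi.sub_apply, Pi.smul_apply, smul_eq_mul, Fin.cons_succ]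
      ring
  rw [h1, Matrix.det_succ_column A' i, Fin.sum_univ_succ]
  have h2 : ∀ j : Fin n, A' j.succ i = 0 := by
    intro j
    rw [hAs]
    simp only [Pi.sub_apply, Pi.smul_apply, smul_eq_mul]
    field_simp
    ring
  have h3 : A'.submatrix (Fin.succAbove 0) (Fin.succAbove i)
      = Matrix.of fun j : Fin n => pr i (A 0) (A j.succ) := by
    ext j k
    simp only [Matrix.submatrix_apply, Fin.zero_succAbove, Matrix.of_apply, pr]
    rw [hAs]
    simp
  simp only [h2, mul_zero, zero_mul, Finset.sum_const_zero, add_zero]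
  rw [h3, hA0, abs_mul, abs_mul, abs_pow, abs_neg, abs_one, one_pow, one_mul]

end Vale.Agent.P092.H232
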