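import Vale.Agent.P092.H232.Alg

open MeasureTheory Module

namespace Vale.Agent.P092.H232

/-- The scaling factor. -/
noncomputable def lam (n : ℕ) (x : ℝ) : ℝ := |x| ^ ((n : ℝ)⁻¹)

theorem lam_pos (n : ℕ) {x : ℝ} (hx : x ≠ 0) : 0 < lam n x :=
  Real.rpow_pos_of_pos (abs_pos.2 hx) _

theorem lam_pow {n : ℕ} (hn : n ≠ 0) (x : ℝ) : lam n x ^ n = |x| :=
  Real.rpow_inv_natCast_pow (abs_nonneg x) hn

/-- The reduced matrices with first row having a non-zero `i`-th entry. -/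
def step {n : ℕ} (F : Set (Fin n → Fin n → ℝ)) (i : Fin (n + 1)) :
    Set (Fin (n + 1) → Fin (n + 1) → ℝ) :=
  {A | A 0 i ≠ 0 ∧ (∀ k, |A 0 k| ≤ 2) ∧ (∀ j : Fin n, A j.succ i / A 0 i ∈ Set.Ico (0 : ℝ) 1) ∧
    (fun j : Fin n => lam n (A 0 i) • pr i (A 0) (A j.succ)) ∈ F}

/-- The reduced matrices (rows). -/
def FF : (n : ℕ) → Set (Fin n → Fin n → ℝ)
  | 0 => Set.univ
  | n + 1 => ⋃ i, step (FF n) i

theorem measurable_lam (n : ℕ) : Measurable (lam n) := by
  unfold lam
  fun_prop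

theorem measurableSet_step {n : ℕ} {F : Set (Fin n → Fin n → ℝ)} (hF : MeasurableSet F)
    (i : Fin (n + 1)) : MeasurableSet (step F i) := by
  have m1 : ∀ (j k : Fin (n + 1)), Measurable fun A : Fin (n + 1) → Fin (n + 1) → ℝ => A j k :=
    fun j k => (measurable_pi_apply k).comp (measurable_pi_apply j)
  refine MeasurableSet.inter ?_ (MeasurableSet.inter ?_ (MeasurableSet.inter ?_ ?_))
  · exact (m1 0 i) (measurableSet_singleton (0 : ℝ)).compl
  · have : {A : Fin (n + 1) → Fin (n + 1) → ℝ | ∀ k, |A 0 k| ≤ 2}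
        = ⋂ k, {A | |A 0 k| ≤ 2} := by ext; simp
    show MeasurableSet {A : Fin (n + 1) → Fin (n + 1) → ℝ | ∀ k, |A 0 k| ≤ 2}
    rw [this]
    refine MeasurableSet.iInter fun k => ?_
    exact measurableSet_le (m1 0 k).abs measurable_const
  · have : {A : Fin (n + 1) → Fin (n + 1) → ℝ |
        ∀ j : Fin n, A j.succ i / A 0 i ∈ Set.Ico (0 : ℝ) 1}
        = ⋂ j : Fin n, {A | A j.succ i / A 0 i ∈ Set.Ico (0 : ℝ) 1} := by ext; simp
    show MeasurableSet {A : Fin (n + 1) → Fin (n + 1) → ℝ |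
        ∀ j : Fin n, A j.succ i / A 0 i ∈ Set.Ico (0 : ℝ) 1}
    rw [this]
    refine MeasurableSet.iInter fun j => ?_
    exact ((m1 j.succ i).div (m1 0 i)) measurableSet_Ico
  · refine hF.preimage (f := fun (A : Fin (n + 1) → Fin (n + 1) → ℝ) (j : Fin n) =>
        lam n (A 0 i) • pr i (A 0) (A j.succ)) ?_
    refine measurable_pi_lambda _ fun j => measurable_pi_lambda _ fun k => ?_
    simp only [Pi.smul_apply, smul_eq_mul, pr]
    exact ((measurable_lam n).comp (m1 0 i)).mul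
      ((m1 j.succ _).sub (((m1 j.succ i).div (m1 0 i)).mul (m1 0 _)))

theorem measurableSet_FF (n : ℕ) : MeasurableSet (FF n) := by
  induction n with
  | zero => exact MeasurableSet.univ
  | succ n ih => exact MeasurableSet.iUnion fun i => measurableSet_step ih i

theorem pr_sum {n : ℕ} (i : Fin (n + 1)) (v : Fin (n + 1) → ℝ) (h : v i ≠ 0) {m : ℕ}
    (a : ℝ) (c : Fin m → ℝ) (X : Fin m → Fin (n + 1) → ℝ) :
    pr i v (a • v + ∑ k, c k • X k) = ∑ k, c k • pr i v (X k) := by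
  funext l
  simp only [pr, Pi.add_apply, Pi.smul_apply, smul_eq_mul, Finset.sum_apply]
  have : (a * v i + ∑ k, c k * X k i) / v i = a + (∑ k, c k * X k i) / v i := by
    field_simp
  rw [this]
  simp only [mul_sub, Finset.sum_sub_distrib, Finset.sum_div, add_mul, Finset.sum_mul]
  have h2 : ∀ k, c k * (X k i / v i * v (i.succAbove l)) = c k * X k i / v i * v (i.succAbove l) :=
    fun k => by ring
  simp only [h2]
  ring

theorem cover_step {n : ℕ} {F : Set (Fin n → Fin n → ℝ)}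
    (ih : ∀ A : Matrix (Fin n) (Fin n) ℝ, A.det ≠ 0 → |A.det| ≤ 1 → ∃ B, Red A B ∧ B ∈ F)
    (A : Matrix (Fin (n + 1)) (Fin (n + 1)) ℝ) (h0 : A.det ≠ 0) (h1 : |A.det| ≤ 1) :
    ∃ B, Red A B ∧ B ∈ ⋃ i, step F i := by
  obtain ⟨B, hAB, hB0, hB2⟩ := exists_short n A h0 h1
  obtain ⟨i, hi⟩ : ∃ i, B 0 i ≠ 0 := by
    by_contra hcon
    push Not at hcon
    exact hB0 (funext hcon)
  have hdet : |B.det| = |A.det| := by
    obtain ⟨_, _, h⟩ := hAB
    exact h
  have hBd : B.det ≠ 0 := by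
    intro h
    rw [h, abs_zero] at hdet
    exact h0 (abs_eq_zero.1 hdet.symm)
  set P : Matrix (Fin n) (Fin n) ℝ := Matrix.of fun j : Fin n => pr i (B 0) (B j.succ) with hP
  have hPd : |B.det| = |B 0 i| * |P.det| := det_pr i B hi
  have hPd0 : P.det ≠ 0 := by
    intro h
    rw [h, abs_zero, mul_zero] at hPd
    exact hBd (abs_eq_zero.1 hPd)
  have hl : 0 < lam n (B 0 i) := lam_pos n hi
  have hQd : (lam n (B 0 i) • P).det = lam n (B 0 i) ^ n * P.det := by
    rw [Matrix.det_smul, Fintype.card_fin]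
  obtain ⟨C', hC', hC'F⟩ := ih (lam n (B 0 i) • P)
    (by rw [hQd]; exact mul_ne_zero (pow_ne_zero _ hl.ne') hPd0)
    (by
      rw [hQd, abs_mul, abs_of_pos (pow_pos hl n)]
      rcases eq_or_ne n 0 with rfl | hn
      · simp
      · rw [lam_pow hn, ← hPd, hdet]
        exact h1)
  obtain ⟨γ, hγ, hγd⟩ := hC'
  have hγ1 : |γ.det| = 1 := by
    refine abs_det_one hγ hγd ?_
    rw [hQd]
    exact mul_ne_zero (pow_ne_zero _ hl.ne') hPd0
  -- the new rows
  set s : Fin n → ℝ := fun j => (∑ k, (γ j k : ℝ) * B k.succ i) / B 0 i with hs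
  set γ2 : Matrix (Fin (n + 1)) (Fin (n + 1)) ℤ :=
    Matrix.of (Fin.cons (Fin.cons 1 0) fun j => Fin.cons (-⌊s j⌋) (γ j)) with hγ2
  set C : Matrix (Fin (n + 1)) (Fin (n + 1)) ℝ := γ2.map (Int.cast : ℤ → ℝ) * B with hC
  have hC0 : C 0 = B 0 := by
    funext k
    simp only [hC, Matrix.mul_apply, Fin.sum_univ_succ, hγ2, Matrix.map_apply, Matrix.of_apply,
      Fin.cons_zero, Fin.cons_succ, Pi.zero_apply, Int.cast_zero, zero_mul,
      Finset.sum_const_zero, Int.cast_one, one_mul, add_zero]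
  have hCs : ∀ j : Fin n, C j.succ = (-(⌊s j⌋ : ℝ)) • B 0 + ∑ k, (γ j k : ℝ) • B k.succ := by
    intro j
    funext k
    simp only [hC, Matrix.mul_apply, Fin.sum_univ_succ, hγ2, Matrix.map_apply, Matrix.of_apply,
      Fin.cons_zero, Fin.cons_succ, Pi.add_apply, Pi.smul_apply, smul_eq_mul, Finset.sum_apply,
      Int.cast_neg]
  have hprC : ∀ j : Fin n, pr i (C 0) (C j.succ) = ∑ k, (γ j k : ℝ) • P k := by
    intro j
    rw [hC0, hCs, pr_sum i (B 0) hi]
    rfl
  have hprM : (Matrix.of fun j : Fin n => pr i (C 0) (C j.succ))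
      = γ.map (Int.cast : ℤ → ℝ) * P := by
    ext j k
    rw [Matrix.of_apply, hprC]
    simp [Matrix.mul_apply, Finset.sum_apply]
  refine ⟨C, hAB.trans ⟨γ2, rfl, ?_⟩, ?_⟩
  · rw [det_pr i C (by rw [hC0]; exact hi), hprM, hC0, Matrix.det_mul, det_castMap, abs_mul]
    have : |(γ.det : ℝ)| = 1 := by exact_mod_cast hγ1
    rw [this, one_mul, ← hPd]
  · refine Set.mem_iUnion.2 ⟨i, ?_, ?_, ?_, ?_⟩
    · rw [hC0]; exact hi
    · rw [hC0]; exact hB2
    · intro j
      have h5 : C j.succ i / C 0 i = Int.fract (s j) := by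
        rw [hC0, hCs]
        simp only [Pi.add_apply, Pi.smul_apply, smul_eq_mul, Finset.sum_apply]
        rw [add_div, mul_div_assoc, div_self hi, mul_one]
        rw [Int.fract]
        simp only [hs]
        ring
      rw [h5]
      exact ⟨Int.fract_nonneg _, Int.fract_lt_one _⟩
    · have h6 : (fun j : Fin n => lam n (C 0 i) • pr i (C 0) (C j.succ)) = C' := by
        rw [hγ]
        funext j k
        rw [hprC, hC0]
        simp only [Matrix.mul_apply, Pi.smul_apply, smul_eq_mul, Finset.sum_apply,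
          Matrix.map_apply, Matrix.smul_apply, Finset.mul_sum]
        refine Finset.sum_congr rfl fun l _ => ?_
        ring
      rw [h6]
      exact hC'F

theorem cover (n : ℕ) : ∀ A : Matrix (Fin n) (Fin n) ℝ, A.det ≠ 0 → |A.det| ≤ 1 →
    ∃ B, Red A B ∧ B ∈ FF n := by
  induction n with
  | zero => exact fun A _ _ => ⟨A, Red.refl A, trivial⟩
  | succ n ih => exact cover_step ih

end Vale.Agent.P092.H232
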